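import Vale.Agent.P346Q.Two
import Vale.Agent.P346.Upper

/-! `2 ^ Ω(√n) ≤ s_K(n) ≤ n ^ O(√n)` for homogeneous `ΣΠΣΠΣ` circuits computing `IMM_{n,n}` over
every finite field. -/

namespace Vale.Agent.Results.P346.AllFinite

open _root_.P346

theorem result (K : Type) [Field K] [Finite K] :
    ∃ c : ℝ, 0 < c ∧
      (∀ (n : ℕ) [NeZero n], (2 : ℝ) ^ (c * √(n : ℝ)) ≤ (sK K n : ℝ)) ∧
      (∀ (n : ℕ) [NeZero n], 2 ≤ n → (sK K n : ℝ) ≤ (n : ℝ) ^ (6 * √(n : ℝ))) := by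
  obtain ⟨c, hc, h⟩ := P346Q.lower_every_finite K
  refine ⟨c, hc, fun n _ => ?_, fun n _ hn => upper_real K n hn⟩
  obtain ⟨C, h1, h2, h3⟩ := sK_spec K n
  rw [← h3]
  exact h n C h1 h2

end Vale.Agent.Results.P346.AllFinite
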