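import Vale.Agent.P346.Main

/-! `2 ^ Ω(√n)` lower bound for product-depth-two circuits computing `IMM_{n,n}` over `F₂`. -/

namespace Vale.Agent.Results.P346.ExpLower

open _root_.P346

theorem result (n : ℕ) [NeZero n] (C : Circ (ZMod 2) (Fin n × Fin n × Fin n))
    (hC : C.poly = IMM (ZMod 2) n n) :
    (2 : ℝ) ^ (√(n : ℝ) / 23 - 1) ≤ (C.size : ℝ) :=
  size_lower_real C hC

end Vale.Agent.Results.P346.ExpLower
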